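import Vale.Agent.P354K.Unif

/-! Block B9: expansion of the Hamiltonian constraint at a base jet. -/

open scoped ContDiff
open Set Filter Topology

namespace Vale.Agent.P354KD

open Vale.Agent.P354K Vale.Agent.P354H

/-- the jet variables as a sum type -/
def eJ : Jt ≃ (Fin 3 × Fin 3) ⊕ (Fin 3 × Fin 3 × Fin 3) ⊕ (Fin 3 × Fin 3 × Fin 3 × Fin 3) ⊕
    (Fin 3 × Fin 3) ⊕ (Fin 3 × Fin 3 × Fin 3) where
  toFun
    | .h a b => .inl (a, b)
    | .dh i a b => .inr (.inl (i, a, b))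
    | .ddh i k a b => .inr (.inr (.inl (i, k, a, b)))
    | .p a b => .inr (.inr (.inr (.inl (a, b))))
    | .dp i a b => .inr (.inr (.inr (.inr (i, a, b))))
  invFun
    | .inl (a, b) => .h a b
    | .inr (.inl (i, a, b)) => .dh i a b
    | .inr (.inr (.inl (i, k, a, b))) => .ddh i k a b
    | .inr (.inr (.inr (.inl (a, b)))) => .p a b
    | .inr (.inr (.inr (.inr (i, a, b)))) => .dp i a b
  left_inv x := by cases x <;> rfl
  right_inv x := by rcases x with _ | _ | _ | _ | _ <;> rfl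

theorem sum_Jt (f : Jt → ℝ) : ∑ x, f x = ∑ a, ∑ b, f (.h a b) + ∑ i, ∑ a, ∑ b, f (.dh i a b) +
    ∑ i, ∑ k, ∑ a, ∑ b, f (.ddh i k a b) + ∑ a, ∑ b, f (.p a b) +
    ∑ i, ∑ a, ∑ b, f (.dp i a b) := by
  rw [← eJ.symm.sum_comp]
  simp only [Fintype.sum_sum_type, Fintype.sum_prod_type, add_assoc]
  rfl

variable {P : Type}

/-- families of functions of the jet variables -/
abbrev Fm (P : Type) : Type := P → X3 → (Jt → ℝ) → ℝ

theorem Pol.cg {n : ℕ} {F G : Fm P} (h : Pol n F) (e : ∀ r z v, G r z v = F r z v) : Pol n G := by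
  obtain rfl : G = F := funext fun r => funext fun z => funext (e r z)
  exact h

theorem Pol.smul {n : ℕ} {F : Fm P} {c : P → X3 → ℝ} (hc : UD c) (h : Pol n F) :
    Pol n fun r z v => c r z * F r z v := ((Pol.coef hc).mul h).mono (by omega)

theorem Pol.sum {n : ℕ} {ι : Type} (s : Finset ι) {F : ι → Fm P} (h : ∀ i, Pol n (F i)) :
    Pol n fun r z v => ∑ i ∈ s, F i r z v := by
  classical
  induction s using Finset.induction_on with
  | empty => exact Pol.cg (Pol.zero n) fun _ _ _ => Finset.sum_empty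
  | insert a s ha ih => exact Pol.cg ((h a).add ih) fun _ _ _ => Finset.sum_insert ha

/-- linear forms in the variables from S -/
def LinF (S : Jt → Prop) (L : Fm P) : Prop :=
  ∃ l : Jt → P → X3 → ℝ, (∀ x, UD (l x)) ∧ (∀ x, ¬S x → l x = 0) ∧
    ∀ r z v, L r z v = ∑ x, l x r z * v x

/-- quadratic forms in the pairs of variables from T -/
def QuF (T : Jt → Jt → Prop) (Q : Fm P) : Prop :=
  ∃ c : Jt → Jt → P → X3 → ℝ, (∀ x y, UD (c x y)) ∧ (∀ x y, ¬T x y → c x y = 0) ∧
    ∀ r z v, Q r z v = ∑ x, ∑ y, c x y r z * v x * v y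

variable {S S' : Jt → Prop} {T T' : Jt → Jt → Prop} {L L' Q Q' : Fm P} {c : P → X3 → ℝ}

theorem linF_zero : LinF S fun (_ : P) _ _ => (0 : ℝ) :=
  ⟨fun _ _ _ => 0, fun _ => ud_c 0, fun _ _ => rfl, fun _ _ _ => by simp⟩

theorem linF_var {x : Jt} (h : S x) : LinF S fun (_ : P) _ v => v x :=
  ⟨fun y _ _ => if y = x then 1 else 0, fun _ => ud_c _,
    fun y hy => by funext r z; simp [show y ≠ x from fun e => hy (e ▸ h)], fun _ _ _ => by simp⟩

theorem LinF.add (h : LinF S L) (h' : LinF S L') : LinF S fun r z v => L r z v + L' r z v := by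
  obtain ⟨l, h1, h2, h3⟩ := h
  obtain ⟨l', h1', h2', h3'⟩ := h'
  exact ⟨fun x r z => l x r z + l' x r z, fun x => (h1 x).add (h1' x),
    fun x hx => by funext r z; simp [h2 x hx, h2' x hx],
    fun r z v => by simp only [h3, h3', add_mul, Finset.sum_add_distrib]⟩

theorem LinF.smul (hc : UD c) (h : LinF S L) : LinF S fun r z v => c r z * L r z v := by
  obtain ⟨l, h1, h2, h3⟩ := h
  exact ⟨fun x r z => c r z * l x r z, fun x => hc.mul (h1 x),
    fun x hx => by funext r z; simp [h2 x hx],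
    fun r z v => by simp only [h3, Finset.mul_sum, mul_assoc]⟩

theorem LinF.cg (h : LinF S L) (e : ∀ r z v, L' r z v = L r z v) : LinF S L' :=
  let ⟨l, h1, h2, h3⟩ := h
  ⟨l, h1, h2, fun r z v => (e r z v).trans (h3 r z v)⟩

theorem LinF.mono (h : LinF S L) (e : ∀ x, S x → S' x) : LinF S' L :=
  let ⟨l, h1, h2, h3⟩ := h
  ⟨l, h1, fun x hx => h2 x fun h => hx (e x h), h3⟩

theorem LinF.sum {ι : Type} (s : Finset ι) {F : ι → Fm P} (h : ∀ i, LinF S (F i)) :
    LinF S fun r z v => ∑ i ∈ s, F i r z v := by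
  classical
  induction s using Finset.induction_on with
  | empty => exact linF_zero.cg fun _ _ _ => Finset.sum_empty
  | insert a s ha ih => exact ((h a).add ih).cg fun _ _ _ => Finset.sum_insert ha

theorem LinF.pol (h : LinF S L) : Pol 1 L :=
  let ⟨_, h1, _, h3⟩ := h
  Pol.cg (Pol.sum _ fun x => Pol.smul (h1 x) (Pol.var x)) h3

theorem quF_zero : QuF T fun (_ : P) _ _ => (0 : ℝ) :=
  ⟨fun _ _ _ _ => 0, fun _ _ => ud_c 0, fun _ _ _ => rfl, fun _ _ _ => by simp⟩

theorem QuF.add (h : QuF T Q) (h' : QuF T Q') : QuF T fun r z v => Q r z v + Q' r z v := by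
  obtain ⟨l, h1, h2, h3⟩ := h
  obtain ⟨l', h1', h2', h3'⟩ := h'
  exact ⟨fun x y r z => l x y r z + l' x y r z, fun x y => (h1 x y).add (h1' x y),
    fun x y hx => by funext r z; simp [h2 x y hx, h2' x y hx],
    fun r z v => by simp only [h3, h3', add_mul, Finset.sum_add_distrib]⟩

theorem QuF.smul (hc : UD c) (h : QuF T Q) : QuF T fun r z v => c r z * Q r z v := by
  obtain ⟨l, h1, h2, h3⟩ := h
  exact ⟨fun x y r z => c r z * l x y r z, fun x y => hc.mul (h1 x y),
    fun x y hx => by funext r z; simp [h2 x y hx],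
    fun r z v => by simp only [h3, Finset.mul_sum, mul_assoc]⟩

theorem QuF.cg (h : QuF T Q) (e : ∀ r z v, Q' r z v = Q r z v) : QuF T Q' :=
  let ⟨l, h1, h2, h3⟩ := h
  ⟨l, h1, h2, fun r z v => (e r z v).trans (h3 r z v)⟩

theorem QuF.mono (h : QuF T Q) (e : ∀ x y, T x y → T' x y) : QuF T' Q :=
  let ⟨l, h1, h2, h3⟩ := h
  ⟨l, h1, fun x y hx => h2 x y fun h => hx (e x y h), h3⟩

theorem QuF.sum {ι : Type} (s : Finset ι) {F : ι → Fm P} (h : ∀ i, QuF T (F i)) :
    QuF T fun r z v => ∑ i ∈ s, F i r z v := by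
  classical
  induction s using Finset.induction_on with
  | empty => exact quF_zero.cg fun _ _ _ => Finset.sum_empty
  | insert a s ha ih => exact ((h a).add ih).cg fun _ _ _ => Finset.sum_insert ha

theorem QuF.pol (h : QuF T Q) : Pol 2 Q :=
  let ⟨_, h1, _, h3⟩ := h
  Pol.cg (Pol.sum _ fun x => Pol.sum _ fun y => (Pol.smul (h1 x y) (Pol.var x)).mul (Pol.var y)) h3

theorem LinF.mul (h : LinF S L) (h' : LinF S' L') (e : ∀ x y, S x → S' y → T x y) :
    QuF T fun r z v => L r z v * L' r z v := by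
  obtain ⟨l, h1, h2, h3⟩ := h
  obtain ⟨l', h1', h2', h3'⟩ := h'
  refine ⟨fun x y r z => l x r z * l' y r z, fun x y => (h1 x).mul (h1' y), fun x y hx => ?_,
    fun r z v => ?_⟩
  · funext r z
    by_cases h4 : S x
    · simp [h2' y fun h => hx (e x y h4 h)]
    · simp [h2 x h4]
  · beta_reduce
    rw [h3, h3', Finset.sum_mul_sum]
    exact Finset.sum_congr rfl fun x _ => Finset.sum_congr rfl fun y _ => by ring

/-- expansion up to the second order at the base jet -/
def Ex (jb : P → Jt → X3 → ℝ) (S : Jt → Prop) (F : (Jt → ℝ) → ℝ) : Prop :=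
  (UD fun r z => F (at' (jb r) z)) ∧ ∃ L Q R : Fm P, LinF S L ∧ QuF (fun x y => S x ∧ S y) Q ∧
    Pol 3 R ∧ ∀ r z v, F (at' (jb r) z + v) = F (at' (jb r) z) + L r z v + Q r z v + R r z v

variable {jb : P → Jt → X3 → ℝ} {F G : (Jt → ℝ) → ℝ}

theorem ex_const (a : ℝ) : Ex jb S fun _ => a :=
  ⟨ud_c a, _, _, _, linF_zero, quF_zero, Pol.zero 3, fun _ _ _ => by simp⟩

theorem ex_var (hb : ∀ x, UD fun r => jb r x) {x : Jt} (h : S x) : Ex jb S fun v => v x :=
  ⟨hb x, _, _, _, linF_var h, quF_zero, Pol.zero 3, fun _ _ _ => by simp⟩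

theorem Ex.add (h : Ex jb S F) (h' : Ex jb S G) : Ex jb S fun v => F v + G v := by
  obtain ⟨h0, L, Q, R, h1, h2, h3, h4⟩ := h
  obtain ⟨h0', L', Q', R', h1', h2', h3', h4'⟩ := h'
  exact ⟨h0.add h0', _, _, _, h1.add h1', h2.add h2', h3.add h3', fun r z v => by
    simp only [h4, h4']; ring⟩

theorem Ex.mul (h : Ex jb S F) (h' : Ex jb S G) : Ex jb S fun v => F v * G v := by
  obtain ⟨h0, L, Q, R, h1, h2, h3, h4⟩ := h
  obtain ⟨h0', L', Q', R', h1', h2', h3', h4'⟩ := h'
  refine ⟨h0.mul h0', _, _, _, (h1'.smul h0).add (h1.smul h0'),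
    ((h2'.smul h0).add (h2.smul h0')).add (h1.mul h1' fun _ _ a b => ⟨a, b⟩),
    (((Pol.smul h0 h3').add (h1.pol.mul (h2'.pol.add (h3'.mono (by omega))))).add
      (h2.pol.mul ((h1'.pol.add (h2'.pol.mono (by omega))).add (h3'.mono (by omega))))).add
      (h3.mul ((((Pol.coef h0').add (h1'.pol.mono (by omega))).add (h2'.pol.mono (by omega))).add
        (h3'.mono (by omega)))), fun r z v => ?_⟩
  simp only [h4, h4']
  ring

theorem Ex.cg (h : Ex jb S F) (e : ∀ v, G v = F v) : Ex jb S G := by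
  obtain rfl : G = F := funext e
  exact h

theorem Ex.sub (h : Ex jb S F) (h' : Ex jb S G) : Ex jb S fun v => F v - G v :=
  (h.add ((ex_const (-1)).mul h')).cg fun v => by ring

/-- the variables h -/
def S0 (x : Jt) : Prop := ∃ a b, x = .h a b

/-- the variables h and dh -/
def S1 (x : Jt) : Prop := S0 x ∨ ∃ i a b, x = .dh i a b

theorem ex_pl (hb : ∀ x, UD fun r => jb r x) (h : Pl F) : Ex jb S1 F := by
  induction h with
  | const c => exact ex_const c
  | h a b => exact ex_var hb (.inl ⟨a, b, rfl⟩)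
  | dh i a b => exact ex_var hb (.inr ⟨i, a, b, rfl⟩)
  | add _ _ h1 h2 => exact h1.add h2
  | mul _ _ h1 h2 => exact h1.mul h2

theorem ex_h (hb : ∀ x, UD fun r => jb r x) (a b : Fin 3) : Ex jb S0 fun v => hm v a b :=
  ex_var hb ⟨a, b, rfl⟩

theorem ex_det (hb : ∀ x, UD fun r => jb r x) : Ex jb S0 fun v => (hm v).det := by
  have h := ex_h hb
  simp only [Matrix.det_fin_three]
  exact (((((((h 0 0).mul (h 1 1)).mul (h 2 2)).sub (((h 0 0).mul (h 1 2)).mul (h 2 1))).sub
    (((h 0 1).mul (h 1 0)).mul (h 2 2))).add (((h 0 1).mul (h 1 2)).mul (h 2 0))).add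
    (((h 0 2).mul (h 1 0)).mul (h 2 1))).sub (((h 0 2).mul (h 1 1)).mul (h 2 0))

theorem adj_eq (G : M3) (a b : Fin 3) : G.adjugate a b =
    G (b + 1) (a + 1) * G (b + 2) (a + 2) - G (b + 1) (a + 2) * G (b + 2) (a + 1) := by
  rw [Matrix.adjugate_fin_three]
  fin_cases a <;> fin_cases b <;> simp <;> ring

theorem ex_adj (hb : ∀ x, UD fun r => jb r x) (a b : Fin 3) :
    Ex jb S0 fun v => (hm v).adjugate a b :=
  (((ex_h hb _ _).mul (ex_h hb _ _)).sub ((ex_h hb _ _).mul (ex_h hb _ _))).cg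
    fun v => adj_eq (hm v) a b

/-- the admissible pairs of variables -/
def TT (x y : Jt) : Prop := wt x + wt y ≤ -1 ∨ (wt x + wt y ≤ 0 ∧ isH x ∧ isH y)

/-- F is the expansion F0 + M + (admissible terms) -/
def Ey (jb : P → Jt → X3 → ℝ) (F : (Jt → ℝ) → ℝ) (M : Fm P) : Prop :=
  ∃ L Q R : Fm P, LinF S1 L ∧ QuF TT Q ∧ Pol 3 R ∧
    ∀ r z v, F (at' (jb r) z + v) = F (at' (jb r) z) + M r z v + L r z v + Q r z v + R r z v

theorem tt_of {x y : Jt} (hx : S1 x) (hy : S1 y) : TT x y := by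
  rcases hx with ⟨_, _, rfl⟩ | ⟨_, _, _, rfl⟩ <;> rcases hy with ⟨_, _, rfl⟩ | ⟨_, _, _, rfl⟩ <;>
    simp [TT, wt, isH]

theorem Ex.ey (h : Ex jb S1 F) : Ey jb F fun _ _ _ => 0 :=
  let ⟨_, L, Q, R, h1, h2, h3, h4⟩ := h
  ⟨L, Q, R, h1, h2.mono fun _ _ h => tt_of h.1 h.2, h3, fun r z v => by rw [h4, add_zero]⟩

theorem Ey.add {M M' : Fm P} (h : Ey jb F M) (h' : Ey jb G M') :
    Ey jb (fun v => F v + G v) fun r z v => M r z v + M' r z v := by
  obtain ⟨L, Q, R, h1, h2, h3, h4⟩ := h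
  obtain ⟨L', Q', R', h1', h2', h3', h4'⟩ := h'
  exact ⟨_, _, _, h1.add h1', h2.add h2', h3.add h3', fun r z v => by simp only [h4, h4']; ring⟩

theorem Ey.sum {ι : Type} (s : Finset ι) {F : ι → (Jt → ℝ) → ℝ} {M : ι → Fm P}
    (h : ∀ i, Ey jb (F i) (M i)) :
    Ey jb (fun v => ∑ i ∈ s, F i v) fun r z v => ∑ i ∈ s, M i r z v := by
  classical
  induction s using Finset.induction_on with
  | empty => simpa using (ex_const (jb := jb) 0).ey
  | insert a s ha ih => simpa only [Finset.sum_insert ha] using (h a).add ih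

theorem ey_one (hb : ∀ x, UD fun r => jb r x) (h : Ex jb S0 F) {y : Jt}
    (hy : ∀ x, S0 x → TT x y) :
    Ey jb (fun v => F v * v y) fun r z v => F (at' (jb r) z) * v y := by
  obtain ⟨h0, L, Q, R, h1, h2, h3, h4⟩ := h
  refine ⟨_, _, _, (h1.mono fun _ => .inl).smul (hb y),
    ((h2.mono fun _ _ h => tt_of (.inl h.1) (.inl h.2)).smul (hb y)).add
      (h1.mul (linF_var (S := (· = y)) rfl) fun x _ a b => b ▸ hy x a),
    (h2.pol.mul (Pol.var y)).add (h3.mul ((Pol.coef (hb y)).add ((Pol.var y).mono (by omega)))),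
    fun r z v => ?_⟩
  simp only [h4, Pi.add_apply, at']
  ring

theorem ey_two (hb : ∀ x, UD fun r => jb r x) (h : Ex jb S0 F) {y w : Jt}
    (hy : ∀ x, S0 x → TT x y) (hw : ∀ x, S0 x → TT x w) :
    Ey jb (fun v => F v * (v y * v w)) fun r z v =>
      F (at' (jb r) z) * (jb r y z * v w + v y * jb r w z + v y * v w) := by
  obtain ⟨h0, L, Q, R, h1, h2, h3, h4⟩ := h
  have l1 : LinF (fun x => x = y ∨ x = w) fun r z v => jb r y z * v w + jb r w z * v y :=
    ((linF_var (.inr rfl)).smul (hb y)).add ((linF_var (.inl rfl)).smul (hb w))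
  have p2 := (Pol.var (P := P) y).mul (Pol.var w)
  refine ⟨_, _, _, (h1.mono fun _ => .inl).smul ((hb y).mul (hb w)),
    ((h2.mono fun _ _ h => tt_of (.inl h.1) (.inl h.2)).smul ((hb y).mul (hb w))).add
      (h1.mul l1 fun x _ a b => b.elim (· ▸ hy x a) (· ▸ hw x a)),
    ((h1.pol.mul p2).add (h2.pol.mul (l1.pol.add (p2.mono (by omega))))).add
      (h3.mul (((Pol.coef ((hb y).mul (hb w))).add (l1.pol.mono (by omega))).add
        (p2.mono (by omega)))), fun r z v => ?_⟩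
  simp only [h4, Pi.add_apply, at']
  ring

/-- the coefficients of the De Witt form -/
noncomputable def qc (G : M3) (a b c d : Fin 3) : ℝ := G a c * G b d - G a b * G c d / 2

theorem par_eq (G π : M3) (a b : Fin 3) : par G π a b = ∑ c, ∑ d, qc G a b c d * π c d := by
  simp only [par, qc, Fin.sum_univ_three]
  ring

theorem qf_eq (G π π' : M3) :
    qf G π π' = ∑ a, ∑ b, ∑ c, ∑ d, qc G a b c d * (π a b * π' c d) := by
  simp only [qf, par_eq, Finset.mul_sum, mul_left_comm]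

theorem qf_comm {G : M3} (h : ∀ a b, G a b = G b a) (π π' : M3) : qf G π π' = qf G π' π := by
  simp only [qf, par, Fin.sum_univ_three, h 1 0, h 2 0, h 2 1]
  ring

theorem ex_qc (hb : ∀ x, UD fun r => jb r x) (a b c d : Fin 3) :
    Ex jb S0 fun v => -(hm v).det ^ 2 * qc (hm v) a b c d :=
  (((ex_const (-1)).mul ((ex_det hb).mul (ex_det hb))).mul (((ex_h hb a c).mul (ex_h hb b d)).sub
    (((ex_h hb a b).mul (ex_h hb c d)).mul (ex_const (1 / 2))))).cg fun v => by rw [qc]; ring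

theorem ex_SS (hb : ∀ x, UD fun r => jb r x) (a b k l : Fin 3) :
    Ex jb S0 fun v => SS (hm v) a b k l :=
  (ex_det hb).mul (((ex_adj hb a k).mul (ex_adj hb b l)).sub ((ex_adj hb a b).mul (ex_adj hb k l)))

theorem ud_par (hb : ∀ x, UD fun r => jb r x) (a b : Fin 3) :
    UD fun r z => par (hm (at' (jb r) z)) (pm (at' (jb r) z)) a b :=
  (UD.sum _ fun c => UD.sum _ fun d => ((hb (.h a c)).mul (hb (.h b d))).mul (hb (.p c d))).sub
    (by
      simp only [div_eq_mul_inv]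
      exact ((hb (.h a b)).mul (UD.sum _ fun c => UD.sum _ fun d =>
        (hb (.h c d)).mul (hb (.p c d)))).mul (ud_c 2⁻¹))

/-- the explicit part of the linearised Hamiltonian constraint -/
noncomputable def l0 (v : Jt → ℝ) : Jt → ℝ
  | .ddh k l a b => SS (hm v) a b k l
  | .p a b => -2 * (hm v).det ^ 2 * par (hm v) (pm v) a b
  | _ => 0

theorem linF_PM (hb : ∀ x, UD fun r => jb r x) (a : Fin 3) :
    LinF (fun _ => True) fun r z v => PM a (at' (jb r) z) v + PM a v (at' (jb r) z) := by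
  have h : ∀ x y, LinF (fun _ => True) fun r z (v : Jt → ℝ) => jb r x z * v y := fun x y =>
    (linF_var trivial).smul (hb x)
  refine ((LinF.sum Finset.univ fun b => LinF.sum Finset.univ fun c =>
    ((h (.dh b a c) (.p c b)).add (h (.h a c) (.dp b c b))).add
      ((h (.dh a b c) (.p b c)).smul (ud_c (-1 / 2)))).add
    (LinF.sum Finset.univ fun b => LinF.sum Finset.univ fun c =>
      ((h (.p c b) (.dh b a c)).add (h (.dp b c b) (.h a c))).add
        ((h (.p b c) (.dh a b c)).smul (ud_c (-1 / 2))))).cg fun r z v => ?_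
  simp only [PM, at', Fin.sum_univ_three]
  ring

theorem dec : DEC := by
  intro B hB P jb hj
  have hb := hj.ud
  have t1 : ∀ x, S0 x → ∀ k l a b, TT x (.ddh k l a b) := by
    rintro _ ⟨_, _, rfl⟩ k l a b
    simp [TT, wt, isH]
  have t2 : ∀ x, S0 x → ∀ a b, TT x (.p a b) := by
    rintro _ ⟨_, _, rfl⟩ a b
    simp [TT, wt]
  obtain ⟨L, Q, R, ⟨l, l1, l2, l3⟩, ⟨c, c1, c2, c3⟩, h3, h4⟩ :=
    ((Ey.sum Finset.univ fun a => Ey.sum Finset.univ fun b => Ey.sum Finset.univ fun k =>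
      Ey.sum Finset.univ fun l => ey_one hb (ex_SS hb a b k l) fun x hx => t1 x hx k l a b).add
      (ex_pl hb hB).ey).add
    (Ey.sum Finset.univ fun a => Ey.sum Finset.univ fun b => Ey.sum Finset.univ fun c =>
      Ey.sum Finset.univ fun d => ey_two hb (ex_qc hb a b c d) (fun x hx => t2 x hx a b)
        fun x hx => t2 x hx c d)
  choose m m1 _ m3 using linF_PM hb
  have n1 : ∀ x, ¬S1 x → ∀ r z, l x r z = 0 := fun x hx r z => by rw [l2 x hx]; rfl
  refine ⟨fun k x r z => k.elim (l x r z + l0 (at' (jb r) z) x) fun a => m a x r z, c, R,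
    ⟨fun k x => ?_, fun k l a b r z => ?_, fun i a b r z => ?_, fun a b r z => ?_,
      fun a r z v => (m3 a r z v).symm⟩, c1, h3, fun x y => ?_, fun r z v => ?_⟩
  · rcases k with _ | a
    · refine (l1 x).add ?_
      cases x
      case ddh k l a b => exact (ex_SS hb a b k l).1
      case p a b => exact ((ud_c (-2)).mul ((ex_det hb).1.pow 2)).mul (ud_par hb a b)
      all_goals exact ud_c 0
    · exact m1 a x
  · simp [n1 (.ddh k l a b) (by simp [S1, S0]), l0]
  · simp [n1 (.dp i a b) (by simp [S1, S0]), l0]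
  · simp [n1 (.p a b) (by simp [S1, S0]), l0]
  · by_cases h : TT x y
    · exact .inr h
    · exact .inl (c2 x y h)
  · have e : ∀ v, PH B v = ∑ a, ∑ b, ∑ k, ∑ l, SS (hm v) a b k l * v (.ddh k l a b) + B v +
        ∑ a, ∑ b, ∑ c, ∑ d, -(hm v).det ^ 2 * qc (hm v) a b c d * (v (.p a b) * v (.p c d)) := by
      intro v
      simp only [PH, qf_eq, Finset.mul_sum, sub_eq_add_neg, ← Finset.sum_neg_distrib, mul_assoc,
        neg_mul]
      rfl
    have hs : ∀ a b, hm (at' (jb r) z) a b = hm (at' (jb r) z) b a := fun a b =>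
      congrFun ((hj.adm r).hs a b) z
    have e1 : ∑ a, ∑ b, ∑ c, ∑ d, -(hm (at' (jb r) z)).det ^ 2 * qc (hm (at' (jb r) z)) a b c d *
        (jb r (.p a b) z * v (.p c d) + v (.p a b) * jb r (.p c d) z + v (.p a b) * v (.p c d)) =
        -(hm (at' (jb r) z)).det ^ 2 * (qf (hm (at' (jb r) z)) (pm (at' (jb r) z)) (pm v) +
          qf (hm (at' (jb r) z)) (pm v) (pm (at' (jb r) z)) +
          qf (hm (at' (jb r) z)) (pm v) (pm v)) := by
      simp only [qf_eq, Finset.mul_sum, mul_add, Finset.sum_add_distrib, mul_assoc]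
      rfl
    have e2 : ∑ x, l0 (at' (jb r) z) x * v x =
        ∑ a, ∑ b, ∑ k, ∑ l, SS (hm (at' (jb r) z)) a b k l * v (.ddh k l a b) -
        2 * (hm (at' (jb r) z)).det ^ 2 * qf (hm (at' (jb r) z)) (pm v) (pm (at' (jb r) z)) := by
      rw [sum_Jt]
      simp only [l0, zero_mul, Finset.sum_const_zero, zero_add, add_zero, qf, pm, Matrix.of_apply,
        Fin.sum_univ_three]
      ring
    have h5 := h4 r z v
    beta_reduce at h5 ⊢
    rw [e, e, h5, e1, qf_comm hs (pm (at' (jb r) z)) (pm v), l3, c3]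
    simp only [Option.elim, add_mul, Finset.sum_add_distrib, e2]
    ring

end Vale.Agent.P354KD
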