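import Vale.Agent.P354K.Top
import Vale.Agent.P354J.Fr
import Vale.Agent.P354KD.Dec

/-! Block B9: the constraint equations in polynomial form. -/

open scoped ContDiff
open Matrix

namespace Vale.Agent.P354KD

open Vale.Agent.P354K Vale.Agent.P354H
open Vale.Agent.P354J (PD CC MS MD GW curv ham mom Dat MD_inv MD_mul MD_comm sym_of_posDef)

/-! ### The maps between K and pi -/

theorem par_mat {G : M3} (hG : ∀ a b, G a b = G b a) (π : M3) (a b : Fin 3) :
    par G π a b = (G * π * G - ((G * π).trace / 2) • G) a b := by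
  simp only [par, Matrix.sub_apply, mul_apply, Matrix.smul_apply, trace, diag, Fin.sum_univ_three, smul_eq_mul,
    hG 1 0, hG 2 0, hG 2 1, hG b 0, hG b 1, hG b 2]
  ring

theorem piOf_mat {h : M3} (hp : h.PosDef) (K : M3) :
    piOf h K = √h.det • (h⁻¹ * K * h⁻¹ - (h⁻¹ * K).trace • h⁻¹) := by
  have hG := sym_of_posDef hp.inv
  ext a b
  simp only [piOf, of_apply, Matrix.sub_apply, mul_apply, Matrix.smul_apply, trace, diag, Fin.sum_univ_three,
    smul_eq_mul, hG 1 0, hG 2 0, hG 2 1, hG b 0, hG b 1, hG b 2]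
  ring

theorem kOf_mat {h : M3} (hp : h.PosDef) (π : M3) :
    kOf h π = (√h.det)⁻¹ • (h * π * h - ((h * π).trace / 2) • h) := by
  ext a b
  rw [kOf, of_apply, par_mat (sym_of_posDef hp), Matrix.smul_apply, smul_eq_mul, div_eq_inv_mul]

theorem mul_piOf {h : M3} (hp : h.PosDef) (K : M3) :
    h * piOf h K = √h.det • (K * h⁻¹ - (h⁻¹ * K).trace • (1 : M3)) := by
  have h1 := mul_nonsing_inv h hp.det_pos.ne'.isUnit
  rw [piOf_mat hp, Matrix.mul_smul, mul_sub, Matrix.mul_smul, ← mul_assoc, ← mul_assoc, h1, one_mul]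

theorem kOf_piOf {h : M3} (hp : h.PosDef) (K : M3) : kOf h (piOf h K) = K := by
  have h1 := nonsing_inv_mul h hp.det_pos.ne'.isUnit
  have h2 := (Real.sqrt_pos.2 hp.det_pos).ne'
  rw [kOf_mat hp, mul_piOf hp, Matrix.smul_mul, sub_mul, mul_assoc, h1, Matrix.smul_mul, trace_smul,
    trace_sub, trace_smul, trace_mul_comm K, trace_one]
  ext a b
  simp only [Matrix.smul_apply, Matrix.sub_apply, smul_eq_mul, mul_one, one_mul, Fintype.card_fin]
  field_simp
  ring

theorem piOf_kOf {h : M3} (hp : h.PosDef) (π : M3) : piOf h (kOf h π) = π := by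
  have h1 := nonsing_inv_mul h hp.det_pos.ne'.isUnit
  have h3 := mul_nonsing_inv h hp.det_pos.ne'.isUnit
  have h2 := (Real.sqrt_pos.2 hp.det_pos).ne'
  have e : h⁻¹ * kOf h π = (√h.det)⁻¹ • (π * h - ((h * π).trace / 2) • (1 : M3)) := by
    rw [kOf_mat hp, Matrix.mul_smul, mul_sub, Matrix.mul_smul, ← mul_assoc, ← mul_assoc, h1,
      one_mul]
  rw [piOf_mat hp, e, Matrix.smul_mul, sub_mul, mul_assoc, h3, Matrix.smul_mul, trace_smul,
    trace_sub, trace_smul, trace_mul_comm π, trace_one]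
  ext a b
  simp only [Matrix.smul_apply, Matrix.sub_apply, smul_eq_mul, mul_one, one_mul, Fintype.card_fin]
  field_simp
  ring

theorem piOf_symm {h K : M3} (hp : h.PosDef) (hK : K.IsSymm) : (piOf h K).IsSymm := by
  ext a b
  simp only [piOf, transpose_apply, of_apply, Fin.sum_univ_three, hK.apply 0 1, hK.apply 0 2,
    hK.apply 1 2, sym_of_posDef hp.inv b a]
  ring

theorem kOf_symm {h π : M3} (hp : h.PosDef) (hK : π.IsSymm) : (kOf h π).IsSymm := by
  ext a b
  simp only [kOf, par, transpose_apply, of_apply, Fin.sum_univ_three, hK.apply 0 1, hK.apply 0 2,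
    hK.apply 1 2, sym_of_posDef hp b a]
  ring

theorem par_piOf {h : M3} (hp : h.PosDef) (K : M3) (a b : Fin 3) :
    par h (piOf h K) a b = √h.det * K a b := by
  have := congrFun (congrFun (kOf_piOf hp K) a) b
  rw [kOf, of_apply, div_eq_iff (Real.sqrt_pos.2 hp.det_pos).ne'] at this
  rw [this, mul_comm]

theorem adj_inv {h : M3} (hd : h.det ≠ 0) : h.adjugate = h.det • h⁻¹ := by
  rw [inv_def, smul_smul, Ring.inverse_eq_inv', mul_inv_cancel₀ hd, one_smul]

/-! ### The first order part of the scalar curvature -/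

noncomputable def Cc (D : Fin 3 → M3) (i j l : Fin 3) : ℝ := (D i j l + D j i l - D l i j) / 2
noncomputable def Gm (g : M3) (D : Fin 3 → M3) (i k j : Fin 3) : ℝ := ∑ l, g k l * Cc D i j l
noncomputable def Gi (g : M3) (D : Fin 3 → M3) (i k j : Fin 3) : ℝ :=
  ∑ q, (∑ p, g k p * D i p q) * g q j
noncomputable def R1 (g : M3) (D : Fin 3 → M3) : ℝ :=
  ∑ k, ∑ j, ∑ l, g j l * ∑ m, (Gi g D j k m * Cc D k l m - Gi g D k k m * Cc D j l m +
    (Gm g D k k m * Gm g D j m l - Gm g D j k m * Gm g D k m l))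

theorem R1_smul (d : ℝ) (g : M3) (D : Fin 3 → M3) : R1 (d • g) D = d ^ 3 * R1 g D := by
  have e1 : ∀ i k j, Gm (d • g) D i k j = d * Gm g D i k j := fun i k j => by
    simp only [Gm, Matrix.smul_apply, smul_eq_mul, Fin.sum_univ_three]
    ring
  have e2 : ∀ i k j, Gi (d • g) D i k j = d ^ 2 * Gi g D i k j := fun i k j => by
    simp only [Gi, Matrix.smul_apply, smul_eq_mul, Fin.sum_univ_three]
    ring
  simp only [R1, e1, e2, Matrix.smul_apply, smul_eq_mul, Finset.mul_sum]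
  exact Finset.sum_congr rfl fun k _ => Finset.sum_congr rfl fun j _ =>
    Finset.sum_congr rfl fun l _ => Finset.sum_congr rfl fun m _ => by ring

/-- det^3 times the first order part of the scalar curvature -/
noncomputable def BB (v : Jt → ℝ) : ℝ :=
  R1 (hm v).adjugate fun i => Matrix.of fun a b => v (.dh i a b)

theorem pl_cg {F G : (Jt → ℝ) → ℝ} (h : Pl F) (e : ∀ v, G v = F v) : Pl G := by
  obtain rfl : G = F := funext e
  exact h

theorem pl_sum {F : Fin 3 → (Jt → ℝ) → ℝ} (h : ∀ i, Pl (F i)) : Pl fun v => ∑ i, F i v :=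
  pl_cg (((h 0).add (h 1)).add (h 2)) fun _ => Fin.sum_univ_three _

theorem pl_sub {F G : (Jt → ℝ) → ℝ} (h : Pl F) (h' : Pl G) : Pl fun v => F v - G v :=
  pl_cg (h.add ((Pl.const (-1)).mul h')) fun v => by ring

theorem pl_BB : Pl BB := by
  have g : ∀ a b, Pl fun v => (hm v).adjugate a b := fun a b =>
    pl_cg (pl_sub ((Pl.h _ _).mul (Pl.h _ _)) ((Pl.h _ _).mul (Pl.h _ _))) fun v => adj_eq (hm v) a b
  have c : ∀ i j l, Pl fun v => Cc (fun i => Matrix.of fun a b => v (.dh i a b)) i j l :=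
    fun i j l => pl_cg ((pl_sub ((Pl.dh i j l).add (Pl.dh j i l)) (Pl.dh l i j)).mul
      (Pl.const 2⁻¹)) fun v => div_eq_mul_inv _ _
  have gm : ∀ i k j, Pl fun v =>
      Gm (hm v).adjugate (fun i => Matrix.of fun a b => v (.dh i a b)) i k j :=
    fun i k j => pl_sum fun l => (g k l).mul (c i j l)
  have gi : ∀ i k j, Pl fun v =>
      Gi (hm v).adjugate (fun i => Matrix.of fun a b => v (.dh i a b)) i k j :=
    fun i k j => pl_sum fun q => (pl_sum fun p => (g k p).mul (Pl.dh i p q)).mul (g q j)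
  exact pl_sum fun k => pl_sum fun j => pl_sum fun l => (g j l).mul (pl_sum fun m =>
    (pl_sub ((gi j k m).mul (c k l m)) ((gi k k m).mul (c j l m))).add
      (pl_sub ((gm k k m).mul (gm j m l)) ((gm j k m).mul (gm k m l))))

/-! ### Derivatives at a point -/

/-- f is smooth and a is its derivative in the direction i at y -/
def HD (i : Fin 3) (y : X3) (f : X3 → ℝ) (a : ℝ) : Prop := ContDiff ℝ ∞ f ∧ pd i f y = a

section
variable {i : Fin 3} {y : X3} {f g : X3 → ℝ} {a b : ℝ}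

theorem hd_c (c : ℝ) : HD i y (fun _ => c) 0 := ⟨contDiff_const, P354J.pd_const c i y⟩

theorem hd_m {M : X3 → M3} (h : MS M) (p q : Fin 3) : HD i y (fun z => M z p q) (MD i M y p q) :=
  ⟨h p q, rfl⟩

theorem HD.add (h : HD i y f a) (h' : HD i y g b) : HD i y (fun z => f z + g z) (a + b) :=
  ⟨h.1.add h'.1, by rw [P354J.pd_add h.1 h'.1, h.2, h'.2]⟩

theorem HD.sub (h : HD i y f a) (h' : HD i y g b) : HD i y (fun z => f z - g z) (a - b) :=
  ⟨h.1.sub h'.1, by rw [pd_sub' i h.1 h'.1, ← h.2, ← h'.2]⟩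

theorem HD.mul (h : HD i y f a) (h' : HD i y g b) :
    HD i y (fun z => f z * g z) (a * g y + f y * b) :=
  ⟨h.1.mul h'.1, by rw [P354J.pd_mul h.1 h'.1, h.2, h'.2]⟩

theorem HD.half (h : HD i y f a) : HD i y (fun z => f z / 2) (a / 2) := by
  simpa only [div_eq_mul_inv, mul_zero, add_zero] using h.mul (hd_c 2⁻¹)

theorem HD.sum {f : Fin 3 → X3 → ℝ} {a : Fin 3 → ℝ} (h : ∀ k, HD i y (f k) (a k)) :
    HD i y (fun z => ∑ k, f k z) (∑ k, a k) := by
  simpa only [Fin.sum_univ_three] using ((h 0).add (h 1)).add (h 2)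

theorem hd_det {M : X3 → M3} (h : MS M) :
    HD i y (fun z => (M z).det) (∑ p, ∑ q, (M y).adjugate p q * MD i M y q p) := by
  have h := hd_m (i := i) (y := y) h
  have := (((((((h 0 0).mul (h 1 1)).mul (h 2 2)).sub (((h 0 0).mul (h 1 2)).mul (h 2 1))).sub
    (((h 0 1).mul (h 1 0)).mul (h 2 2))).add (((h 0 1).mul (h 1 2)).mul (h 2 0))).add
    (((h 0 2).mul (h 1 0)).mul (h 2 1))).sub (((h 0 2).mul (h 1 1)).mul (h 2 0))
  simp only [det_fin_three]
  refine ⟨this.1, this.2.trans ?_⟩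
  simp [adjugate_fin_three, Fin.sum_univ_three]
  ring

theorem hd_sqrt {M : X3 → M3} (h : MS M) (hp : ∀ z, 0 < (M z).det) :
    HD i y (fun z => √(M z).det) (√(M y).det / 2 * ∑ p, ∑ q, (M y)⁻¹ p q * MD i M y q p) := by
  have h1 := hd_det (i := i) (y := y) h
  have h2 : HD i y (fun z => √(M z).det) _ := ⟨h1.1.sqrt fun z => (hp z).ne', rfl⟩
  have h3 := (h2.mul h2).2
  simp only [Real.mul_self_sqrt (hp _).le] at h3
  rw [h1.2, adj_inv (hp y).ne'] at h3
  refine ⟨h2.1, mul_left_cancel₀ (Real.sqrt_pos.2 (hp y)).ne' ?_⟩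
  have h4 := Real.mul_self_sqrt (hp y).le
  simp only [Matrix.smul_apply, smul_eq_mul, mul_assoc, ← Finset.mul_sum] at h3
  linear_combination (-1 / 2) * h3 - (1 / 2 * ∑ p, ∑ q, (M y)⁻¹ p q * MD i M y q p) * h4

end

/-! ### The constraints -/

theorem alg2 (g : M3) (DD : Fin 3 → Fin 3 → M3) (hg : ∀ a b, g a b = g b a)
    (h1 : ∀ i k, DD i k = DD k i) (h2 : ∀ i k a b, DD i k a b = DD i k b a) :
    ∑ a, ∑ b, ∑ k, ∑ l, (g a k * g b l - g a b * g k l) * DD k l a b =
    ∑ k, ∑ j, ∑ l, g j l * ∑ m, g k m * ((DD k j l m + DD k l j m - DD k m j l) / 2 -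
      (DD j k l m + DD j l k m - DD j m k l) / 2) := by
  simp only [Fin.sum_univ_three, hg 1 0, hg 2 0, hg 2 1, h1 1 0, h1 2 0, h1 2 1, h2 _ _ 1 0,
    h2 _ _ 2 0, h2 _ _ 2 1]
  ring

theorem algK (g K : M3) (hg : ∀ a b, g a b = g b a) (hK : ∀ a b, K a b = K b a) :
    -∑ a, ∑ b, (∑ c, ∑ d, g a c * g b d * K c d - g a b * ∑ c, ∑ d, g c d * K c d) * K a b =
    ∑ k, ∑ j, ∑ l, g j l * ((∑ m, g k m * K k m) * K j l - (∑ m, g k m * K j m) * K k l) := by
  simp only [Fin.sum_univ_three, hg 1 0, hg 2 0, hg 2 1, hK 1 0, hK 2 0, hK 2 1]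
  ring

variable {h g K : X3 → M3}

theorem dat_sym (D : Dat h g K) (y : X3) (a b : Fin 3) : g y a b = g y b a := by
  have h1 : (h y)ᵀ = h y := Matrix.ext fun a b => D.symh y b a
  have h2 : h y * (g y)ᵀ = 1 := by rw [← h1, ← transpose_mul, D.inv y, transpose_one]
  have h3 : (g y)ᵀ = g y := by rw [← one_mul (g y)ᵀ, ← D.inv y, mul_assoc, h2, mul_one]
  exact congrFun (congrFun h3 b) a

theorem md_inv (D : Dat h g K) (i : Fin 3) (y : X3) (k m : Fin 3) :
    MD i g y k m = -Gi (g y) (fun i => MD i h y) i k m := by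
  rw [MD_inv D.sh D.shi D.inv]
  rfl

theorem ham_eq (D : Dat h g K) (y : X3) : ham (g y) (fun i j => curv (GW h g K) i j y) =
    ∑ a, ∑ b, ∑ k, ∑ l, (g y a k * g y b l - g y a b * g y k l) * MD k (MD l h) y a b +
    R1 (g y) (fun i => MD i h y) - ∑ a, ∑ b, (∑ c, ∑ d, g y a c * g y b d * K y c d -
      g y a b * ∑ c, ∑ d, g y c d * K y c d) * K y a b := by
  have e1 : ∀ i j k l : Fin 3, MD i (GW h g K j) y k.succ l.succ =
      ∑ m, (MD i g y k m * Cc (fun i => MD i h y) j l m + g y k m *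
        ((MD i (MD j h) y l m + MD i (MD l h) y j m - MD i (MD m h) y j l) / 2)) :=
    fun i j k l => (HD.sum fun m => (hd_m D.shi k m).mul (((hd_m (D.sh.md j) l m).add
      (hd_m (D.sh.md l) j m)).sub (hd_m (D.sh.md m) j l)).half).2
  have e2 : ∀ i j k l : Fin 3, (GW h g K i y * GW h g K j y) k.succ l.succ =
      (∑ m, g y k m * K y i m) * K y j l +
        ∑ m, Gm (g y) (fun i => MD i h y) i k m * Gm (g y) (fun i => MD i h y) j m l := by
    intro i j k l
    rw [mul_apply, Fin.sum_univ_succ]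
    rfl
  rw [sub_eq_add_neg, algK _ _ (dat_sym D y) (D.symK y), alg2 _ (fun k l => MD k (MD l h) y)
    (dat_sym D y) (fun i k => MD_comm D.sh i k y) fun i k a b => by
      simp only [P354J.MD_apply, D.symh _ a b]]
  simp only [ham, curv, Matrix.sub_apply, Matrix.add_apply, e1, e2, md_inv D, R1,
    ← Finset.sum_add_distrib]
  refine Finset.sum_congr rfl fun k _ => Finset.sum_congr rfl fun j _ =>
    Finset.sum_congr rfl fun l _ => ?_
  simp only [Fin.sum_univ_three]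
  ring

theorem mom_eq (a : Fin 3) (y : X3) : mom (g y) (fun i j => curv (GW h g K) i j y) a =
    ∑ j, ∑ l, g y j l * (MD a K y j l - MD j K y a l +
      ∑ m, (K y a m * Gm (g y) (fun i => MD i h y) j m l -
        K y j m * Gm (g y) (fun i => MD i h y) a m l)) := by
  have e1 : ∀ i j l : Fin 3, MD i (GW h g K j) y 0 l.succ = MD i K y j l := fun _ _ _ => rfl
  have e2 : ∀ i j l : Fin 3, (GW h g K i y * GW h g K j y) 0 l.succ =
      ∑ m, K y i m * Gm (g y) (fun i => MD i h y) j m l := by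
    intro i j l
    rw [mul_apply, Fin.sum_univ_succ]
    exact (congrArg (· + _) (zero_mul _)).trans (zero_add _)
  simp only [mom, curv, Matrix.sub_apply, Matrix.add_apply, e1, e2, Finset.sum_sub_distrib,
    add_sub_assoc]

theorem PH_eq (D : PD h K) (y : X3) : PH BB (at' (jet h fun z => piOf (h z) (K z)) y) =
    (h y).det ^ 3 * ham (h y)⁻¹ (fun i j => curv (GW h (fun z => (h z)⁻¹) K) i j y) := by
  have hp := (D.pos y).1
  have e : PH BB (at' (jet h fun z => piOf (h z) (K z)) y) =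
      ∑ a, ∑ b, ∑ k, ∑ l, SS (h y) a b k l * MD k (MD l h) y a b +
      R1 (h y).adjugate (fun i => MD i h y) -
      (h y).det ^ 2 * qf (h y) (piOf (h y) (K y)) (piOf (h y) (K y)) := rfl
  have e1 : ∀ a b, piOf (h y) (K y) a b * (√(h y).det * K y a b) = (h y).det *
      ((∑ c, ∑ d, (h y)⁻¹ a c * (h y)⁻¹ b d * K y c d -
        (h y)⁻¹ a b * ∑ c, ∑ d, (h y)⁻¹ c d * K y c d) * K y a b) := fun a b => by
    rw [piOf, of_apply, mul_mul_mul_comm, Real.mul_self_sqrt hp.det_pos.le]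
  have e2 : ∀ a b k l (x : ℝ), SS (h y) a b k l * x = (h y).det ^ 3 *
      (((h y)⁻¹ a k * (h y)⁻¹ b l - (h y)⁻¹ a b * (h y)⁻¹ k l) * x) := fun a b k l x => by
    simp only [SS, adj_inv hp.det_pos.ne', Matrix.smul_apply, smul_eq_mul]
    ring
  rw [e, ham_eq D.dat, adj_inv hp.det_pos.ne', R1_smul]
  simp only [qf, par_piOf hp, e1, e2, ← Finset.mul_sum]
  ring

theorem ms_piOf (D : PD h K) : MS fun z => piOf (h z) (K z) := fun a b =>
  (hd_sqrt (i := 0) (y := 0) D.sh fun z => (D.pos z).1.det_pos).1.mul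
    ((ContDiff.sum fun c _ => ContDiff.sum fun d _ =>
      ((D.dat.shi a c).mul (D.dat.shi b d)).mul (D.sK c d)).sub
    ((D.dat.shi a b).mul (ContDiff.sum fun c _ => ContDiff.sum fun d _ =>
      (D.dat.shi c d).mul (D.sK c d))))

theorem algM (g K : M3) (D E : Fin 3 → M3) (hg : ∀ a b, g a b = g b a)
    (hK : ∀ a b, K a b = K b a) (hD : ∀ i a b, D i a b = D i b a) (a : Fin 3) :
    ∑ b, ((∑ p, ∑ q, g p q * D b q p) / 2 * ∑ l, K a l * g l b +
      ∑ l, (E b a l * g l b + K a l * -Gi g D b l b) -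
      ∑ c, (∑ p, ∑ q, g b p * g c q * K p q - g b c * ∑ p, ∑ q, g p q * K p q) * D a b c / 2) -
      ((∑ p, ∑ q, g p q * D a q p) / 2 * ∑ p, ∑ q, g p q * K q p +
        ∑ p, ∑ q, (-Gi g D a p q * K q p + g p q * E a q p)) =
    -∑ j, ∑ l, g j l * (E a j l - E j a l + ∑ m, (K a m * Gm g D j m l - K j m * Gm g D a m l)) := by
  simp only [Gi, Gm, Cc, Fin.sum_univ_three, hg 1 0, hg 2 0, hg 2 1, hK 1 0, hK 2 0, hK 2 1,
    hD _ 1 0, hD _ 2 0, hD _ 2 1]
  ring

theorem PM_eq (D : PD h K) (a : Fin 3) (y : X3) :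
    PM a (at' (jet h fun z => piOf (h z) (K z)) y) (at' (jet h fun z => piOf (h z) (K z)) y) =
    √(h y).det * -mom (h y)⁻¹ (fun i j => curv (GW h (fun z => (h z)⁻¹) K) i j y) a := by
  have e : PM a (at' (jet h fun z => piOf (h z) (K z)) y) (at' (jet h fun z => piOf (h z) (K z)) y) =
      ∑ b, (MD b (fun z => h z * piOf (h z) (K z)) y a b -
        ∑ c, piOf (h y) (K y) b c * MD a h y b c / 2) := by
    simp only [MD_mul D.sh (ms_piOf D), Matrix.add_apply, mul_apply, ← Finset.sum_add_distrib,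
      ← Finset.sum_sub_distrib]
    rfl
  have e2 : ∀ b, MD b (fun z => h z * piOf (h z) (K z)) y a b = √(h y).det *
      ((∑ p, ∑ q, (h y)⁻¹ p q * MD b h y q p) / 2 * ∑ l, K y a l * (h y)⁻¹ l b +
      ∑ l, (MD b K y a l * (h y)⁻¹ l b + K y a l * -Gi (h y)⁻¹ (fun i => MD i h y) b l b) -
      ((∑ p, ∑ q, (h y)⁻¹ p q * MD b h y q p) / 2 * ∑ p, ∑ q, (h y)⁻¹ p q * K y q p +
        ∑ p, ∑ q, (-Gi (h y)⁻¹ (fun i => MD i h y) b p q * K y q p + (h y)⁻¹ p q * MD b K y q p)) *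
        (1 : M3) a b) := fun b => by
    rw [show (fun z => h z * piOf (h z) (K z)) = _ from funext fun z => mul_piOf (D.pos z).1 (K z)]
    refine ((hd_sqrt (i := b) (y := y) D.sh fun z => (D.pos z).1.det_pos).mul
      ((HD.sum fun l => (hd_m D.sK a l).mul (hd_m D.dat.shi l b)).sub ((HD.sum fun p => HD.sum
        fun q => (hd_m D.dat.shi p q).mul (hd_m D.sK q p)).mul (hd_c ((1 : M3) a b))))).2.trans ?_
    simp only [md_inv D.dat]
    ring
  have e3 : ∀ X : Fin 3 → ℝ, X a = ∑ b, X b * (1 : M3) a b := fun X => by simp [one_apply]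
  rw [e, mom_eq (g := fun z => (h z)⁻¹), ← algM _ _ (fun i => MD i h y) (fun i => MD i K y)
    (dat_sym D.dat y) (D.dat.symK y) (fun i => D.dat.md_sym i y), e3 fun b =>
      (∑ p, ∑ q, (h y)⁻¹ p q * MD b h y q p) / 2 * ∑ p, ∑ q, (h y)⁻¹ p q * K y q p +
        ∑ p, ∑ q, (-Gi (h y)⁻¹ (fun i => MD i h y) b p q * K y q p + (h y)⁻¹ p q * MD b K y q p),
    ← Finset.sum_sub_distrib, Finset.mul_sum]
  refine Finset.sum_congr rfl fun b _ => ?_
  rw [e2]
  simp only [piOf, of_apply, mul_assoc, mul_div_assoc, ← Finset.mul_sum]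
  ring

theorem cc_iff (D : PD h K) (y : X3) :
    CC h K y ↔ ∀ k, PC BB k (at' (jet h fun z => piOf (h z) (K z)) y) = 0 := by
  have hp := (D.pos y).1.det_pos
  simp [CC, Option.forall, PC, PH_eq D, PM_eq D, hp.ne', (Real.sqrt_pos.2 hp).ne']

theorem alg0 : ALG0 :=
  ⟨⟨BB, pl_BB, fun _ _ => cc_iff⟩, fun _ K hp hK => ⟨piOf_symm hp hK, kOf_piOf hp K⟩,
    fun _ π hp hK => ⟨kOf_symm hp hK, piOf_kOf hp π⟩⟩

end Vale.Agent.P354KD
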